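import Vale.Agent.P146.NearOne.Cycle

/-!
The variance of the free energy is arbitrarily large just above the critical temperature.
-/

namespace Vale.Agent.P146.NearOne

open MeasureTheory ProbabilityTheory Vale.Agent.P146

attribute [local instance] Interp.isProb

/-- The variance is the second moment of `Fen` less the square of its mean. -/
theorem moments (β : ℝ) (n : ℕ) :
    MemLp (freeEnergy n β) 2 (disorder n) ∧
      variance (freeEnergy n β) (disorder n) =
        (∫ g, Fen β g ^ 2 ∂gauss (Edge n)) - (∫ g, Fen β g ∂gauss (Edge n)) ^ 2 := by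
  classical
  have hmap : Measurable fun (g : Cfg n) (p : Pair n) => g s(p.1.1, p.1.2) :=
    measurable_pi_lambda _ fun p => measurable_pi_apply _
  have hF : Continuous (freeEnergy n β) := by
    unfold freeEnergy hamiltonian
    exact Continuous.log (by fun_prop) fun g =>
      (Finset.sum_pos (fun s _ => Real.exp_pos _) Finset.univ_nonempty).ne'
  have hmem : MemLp (freeEnergy n β ∘ fun (g : Cfg n) (p : Pair n) => g s(p.1.1, p.1.2)) 2
      (gauss (Edge n)) := (Tame.fen β).memLp_two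
  rw [← disorder_map n]
  refine ⟨(memLp_map_measure_iff hF.aestronglyMeasurable hmap.aemeasurable).2 hmem, ?_⟩
  rw [variance_map hF.aestronglyMeasurable.aemeasurable hmap.aemeasurable, variance_eq_sub hmem]
  rfl

/-- One order of the chaos expansion. -/
theorem order_ge {n : ℕ} (m : ℕ) {β : ℝ} (hβ : β ∈ Set.Icc (1 : ℝ) 2) {t : ℝ} (ht : 0 < t)
    (ht1 : (4 * ((m + 3 : ℕ) : ℝ)) ^ (m + 3) * t ≤ 1 / 4)
    (hρ : mean (ov2 (n := n) β) ≤ t ^ 4)
    (hn : 3 / 4 * (n : ℝ) ^ (m + 3) ≤ (n.descFactorial (m + 3) : ℝ)) (hn1 : m + 3 ≤ n) :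
    1 / (16 * ((m + 3 : ℕ) : ℝ)) ≤
      ∑ α ∈ orders (Edge n) (m + 3), wgt α * coefOf (Fen β) α ^ 2 := by
  classical
  have hn0 : (0 : ℝ) < n := by exact_mod_cast (by omega : 0 < n)
  set I : Finset (Fin (m + 3) → Fin n) := Finset.univ.filter Function.Injective with hI
  have hcard : I.card = n.descFactorial (m + 3) := by
    rw [hI, ← Fintype.card_subtype, Fintype.card_congr (Equiv.subtypeInjectiveEquivEmbedding _ _),
      Fintype.card_embedding_eq, Fintype.card_fin, Fintype.card_fin]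
  set D : ℝ := ((n.descFactorial (m + 3) : ℕ) : ℝ) with hD
  have hD0 : 0 < D := lt_of_lt_of_le (by positivity) hn
  have hchat : ∀ x ∈ I, 1 / 2 ≤ chat β (List.ofFn (cyc x)) := by
    intro x hx
    have h := chat_cyc_ge (n := n) (β := β) (by linarith [hβ.1]) ht x (Finset.mem_filter.1 hx).2
    have hpow : 1 ≤ β ^ (m + 3) := one_le_pow₀ hβ.1
    have hC : (2 * β * (m + 3 : ℕ)) ^ (m + 3) ≤ (4 * ((m + 3 : ℕ) : ℝ)) ^ (m + 3) := by
      have : (0:ℝ) ≤ β := by linarith [hβ.1]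
      have := hβ.2
      gcongr
      linarith
    have hb : t / 2 + t / 4 + mean (ov2 (n := n) β) / (4 * t ^ 3) ≤ t := by
      have : mean (ov2 (n := n) β) / (4 * t ^ 3) ≤ t / 4 := by
        rw [div_le_iff₀ (by positivity)]; linarith
      linarith
    have hρ0 : 0 ≤ mean (ov2 (n := n) β) := integral_nonneg fun g => ov2_nonneg β g
    have herr : (2 * β * (m + 3 : ℕ)) ^ (m + 3) * ((n : ℝ) ^ (m + 3) *
        (t / 2 + t / 4 + mean (ov2 (n := n) β) / (4 * t ^ 3))) ≤ D / 2 := by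
      have h1 : (2 * β * (m + 3 : ℕ)) ^ (m + 3) *
          (t / 2 + t / 4 + mean (ov2 (n := n) β) / (4 * t ^ 3)) ≤ 1 / 4 :=
        le_trans (mul_le_mul hC hb (by positivity) (by positivity)) ht1
      calc _ = (n : ℝ) ^ (m + 3) * ((2 * β * (m + 3 : ℕ)) ^ (m + 3) *
            (t / 2 + t / 4 + mean (ov2 (n := n) β) / (4 * t ^ 3))) := by ring
        _ ≤ (n : ℝ) ^ (m + 3) * (1 / 4) := mul_le_mul_of_nonneg_left h1 (by positivity)
        _ ≤ _ := by linarith
    have h' : D * (1 / 2) ≤ D * chat β (List.ofFn (cyc x)) := by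
      have := mul_le_mul_of_nonneg_left hpow hD0.le
      linarith
    exact le_of_mul_le_mul_left h' hD0
  have hcoef : ∀ x ∈ I, 1 / (4 * (n : ℝ) ^ (m + 3)) ≤
      wgt (cycOrd x) * coefOf (Fen β) (cycOrd x) ^ 2 := by
    intro x hx
    have hxi : Function.Injective x := (Finset.mem_filter.1 hx).2
    have h := chat_eq_coef β (List.ofFn (cyc x)) (fun p hp => by
      obtain ⟨i, rfl⟩ := List.mem_ofFn.1 hp
      exact fun h => one_ne i (hxi h).symm) (cycOrd x) (cycOrd_perm x)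
    rw [List.length_ofFn] at h
    have hc := hchat x hx
    rw [h] at hc
    have hsq : (1 / 2 : ℝ) ^ 2 ≤ (Real.sqrt n ^ (m + 3) * coefOf (Fen β) (cycOrd x)) ^ 2 := by
      gcongr
    rw [mul_pow, ← pow_mul, mul_comm (m + 3) 2, pow_mul, Real.sq_sqrt hn0.le] at hsq
    rw [wgt_cycOrd x hxi, one_mul, div_le_iff₀ (by positivity)]
    linarith
  have hfib : I.card ≤ 2 * (m + 3) * (I.image cycOrd).card :=
    Finset.card_le_mul_card_image I _ fun α _ => cycOrd_fiber α
  calc 1 / (16 * ((m + 3 : ℕ) : ℝ)) ≤ ((I.image cycOrd).card : ℝ) * (1 / (4 * (n : ℝ) ^ (m + 3))) := by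
        have hfib' : D ≤ 2 * ((m + 3 : ℕ) : ℝ) * (I.image cycOrd).card := by
          have : (I.card : ℝ) ≤ ((2 * (m + 3) * (I.image cycOrd).card : ℕ) : ℝ) :=
            Nat.cast_le.2 hfib
          rw [hcard] at this
          rw [hD]; push_cast at this ⊢; exact this
        rw [mul_one_div, div_le_div_iff₀ (by positivity) (by positivity)]
        nlinarith [hfib', hn, pow_pos hn0 (m + 3)]
    _ ≤ ∑ α ∈ I.image cycOrd, wgt α * coefOf (Fen β) α ^ 2 := by
        rw [← nsmul_eq_mul]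
        refine Finset.card_nsmul_le_sum _ _ _ fun α hα => ?_
        obtain ⟨x, hx, rfl⟩ := Finset.mem_image.1 hα
        exact hcoef x hx
    _ ≤ _ := Finset.sum_le_sum_of_subset_of_nonneg
        (fun α hα => by obtain ⟨x, -, rfl⟩ := Finset.mem_image.1 hα; exact cycOrd_mem x)
        fun α _ _ => mul_nonneg (by unfold wgt; positivity) (sq_nonneg _)

theorem descFactorial_ge {n k : ℕ} (hn : 4 * k * k + k + 1 ≤ n) :
    3 / 4 * (n : ℝ) ^ k ≤ n.descFactorial k := by
  have hn0 : (0 : ℝ) < n := by exact_mod_cast (by omega : 0 < n)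
  have h1 : ((n + 1 - k : ℕ) : ℝ) ^ k ≤ n.descFactorial k := by
    exact_mod_cast Nat.pow_sub_le_descFactorial n k
  have hbern : 1 + (k : ℝ) * (-(k : ℝ) / n) ≤ (1 + -(k : ℝ) / n) ^ k := by
    refine one_add_mul_le_pow ?_ k
    rw [neg_div, neg_le_neg_iff, div_le_iff₀ hn0]
    have : (k : ℝ) ≤ n := by exact_mod_cast (by omega : k ≤ n)
    linarith
  have hlow : 3 / 4 ≤ 1 + (k : ℝ) * (-(k : ℝ) / n) := by
    have h4 : ((4 * k * k : ℕ) : ℝ) ≤ n := Nat.cast_le.2 (by omega)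
    push_cast at h4
    have : (k : ℝ) * k / n ≤ 1 / 4 := by rw [div_le_iff₀ hn0]; linarith
    have e : (k : ℝ) * (-(k : ℝ) / n) = -((k : ℝ) * k / n) := by ring
    linarith
  calc 3 / 4 * (n : ℝ) ^ k ≤ (1 + -(k : ℝ) / n) ^ k * (n : ℝ) ^ k := by gcongr; linarith
    _ = ((n : ℝ) - k) ^ k := by rw [← mul_pow]; congr 1; field_simp; ring
    _ ≤ ((n + 1 - k : ℕ) : ℝ) ^ k := by
        gcongr
        · have : (k : ℝ) ≤ n := by exact_mod_cast (by omega : k ≤ n)
          linarith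
        · rw [Nat.cast_sub (by omega)]; push_cast; linarith
    _ ≤ _ := h1

/-- Just above the critical temperature the fluctuations are arbitrarily large. -/
theorem variance_large (M : ℝ) :
    ∃ δ : ℝ, 0 < δ ∧ ∃ N : ℕ, ∀ n : ℕ, N ≤ n → ∀ β : ℝ, 1 ≤ β → β ≤ 1 + δ →
      M ≤ variance (freeEnergy n β) (disorder n) := by
  classical
  obtain ⟨J, hJ⟩ := Filter.eventually_atTop.1
    (Real.tendsto_sum_range_one_div_nat_succ_atTop.eventually_ge_atTop (48 * M))
  set Cb : ℝ := (4 * ((J : ℝ) + 4)) ^ (J + 4) with hCb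
  have hCb1 : 1 ≤ Cb := one_le_pow₀ (by have : (0:ℝ) ≤ J := Nat.cast_nonneg J; linarith)
  set t : ℝ := 1 / (4 * Cb) with ht
  have ht0 : 0 < t := by positivity
  have ht4 : t ≤ 1 / 4 := by
    rw [ht]; exact one_div_le_one_div_of_le (by norm_num) (by linarith)
  set η : ℝ := t ^ 4 / 4 with hη
  have hη0 : 0 < η := by positivity
  have hη1 : η ≤ 1 / 4 := by
    have : t ^ 4 ≤ 1 := pow_le_one₀ ht0.le (by linarith)
    linarith
  obtain ⟨N, hN⟩ := Filter.eventually_atTop.1 (overlap_small hη0 hη1)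
  refine ⟨η, hη0, max N (4 * (J + 4) * (J + 4) + (J + 4) + 1), fun n hn β hβ1 hβ2 => ?_⟩
  rw [(moments β n).2]
  have hρ : mean (ov2 (n := n) β) ≤ t ^ 4 := by
    have := hN n (le_of_max_le_left hn) β ⟨hβ1, hβ2⟩
    linarith
  have hbig := le_of_max_le_right hn
  have hterm : ∀ m ∈ Finset.range J, 1 / (16 * ((m + 3 : ℕ) : ℝ)) ≤
      ∑ α ∈ orders (Edge n) (m + 3), wgt α * coefOf (Fen β) α ^ 2 := by
    intro m hm
    rw [Finset.mem_range] at hm
    refine order_ge m ⟨hβ1, by linarith⟩ ht0 ?_ hρ (descFactorial_ge ?_) (by omega)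
    · have hmJ : ((m + 3 : ℕ) : ℝ) ≤ (J : ℝ) + 4 := by
        push_cast
        have : (m : ℝ) ≤ J := by exact_mod_cast hm.le
        linarith
      have : (4 * ((m + 3 : ℕ) : ℝ)) ^ (m + 3) ≤ Cb := by
        calc (4 * ((m + 3 : ℕ) : ℝ)) ^ (m + 3) ≤ (4 * ((J : ℝ) + 4)) ^ (m + 3) := by gcongr
          _ ≤ Cb := pow_le_pow_right₀
              (by have : (0:ℝ) ≤ J := Nat.cast_nonneg J; linarith) (by omega)
      calc _ ≤ Cb * t := mul_le_mul_of_nonneg_right this ht0.le
        _ = 1 / 4 := by rw [ht]; field_simp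
    · have h1 : (m + 3) * (m + 3) ≤ (J + 4) * (J + 4) := Nat.mul_le_mul (by omega) (by omega)
      calc 4 * (m + 3) * (m + 3) + (m + 3) + 1 ≤ 4 * (J + 4) * (J + 4) + (J + 4) + 1 := by
            gcongr <;> omega
        _ ≤ n := hbig
  have hB := gauss_bessel (Tame.fen (n := n) β) (J + 2)
  set P : ℕ → ℝ := fun k => ∑ α ∈ orders (Edge n) k, wgt α * coefOf (Fen β) α ^ 2 with hP
  have hP0 : P 0 = (∫ g, Fen β g ∂gauss (Edge n)) ^ 2 := Interp.part_zero (Fen β)
  have hPn : ∀ k, 0 ≤ P k := fun k => Interp.part_nonneg (Fen β) k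
  have hsplit : P 0 + ∑ m ∈ Finset.range J, P (m + 3) ≤ ∑ k ∈ Finset.range (J + 2 + 1), P k := by
    rw [show J + 2 + 1 = 3 + J by omega, Finset.sum_range_add]
    have : P 0 ≤ ∑ k ∈ Finset.range 3, P k :=
      Finset.single_le_sum (fun k _ => hPn k) (by simp)
    have e : ∑ m ∈ Finset.range J, P (3 + m) = ∑ m ∈ Finset.range J, P (m + 3) :=
      Finset.sum_congr rfl fun m _ => by rw [add_comm]
    linarith
  have hsum : M ≤ ∑ m ∈ Finset.range J, P (m + 3) := by
    refine le_trans ?_ (Finset.sum_le_sum hterm)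
    have h1 := hJ J le_rfl
    have h2 : ∀ m : ℕ, (1 / ((m : ℝ) + 1)) / 48 ≤ 1 / (16 * ((m + 3 : ℕ) : ℝ)) := fun m => by
      rw [div_div, div_le_div_iff₀ (by positivity) (by positivity)]
      push_cast
      linarith [(Nat.cast_nonneg m : (0:ℝ) ≤ m)]
    calc M ≤ (∑ m ∈ Finset.range J, 1 / ((m : ℝ) + 1)) / 48 := by
          rw [le_div_iff₀ (by norm_num)]; linarith
      _ = ∑ m ∈ Finset.range J, (1 / ((m : ℝ) + 1)) / 48 := Finset.sum_div _ _ _
      _ ≤ _ := Finset.sum_le_sum fun m _ => h2 m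
  linarith

end Vale.Agent.P146.NearOne
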