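import Vale.Agent.P146.NearOne.Overlap

/-!
The expected derivative of the free energy along a long cycle is close to `β^k` when the
overlap is small.
-/

namespace Vale.Agent.P146.NearOne

open MeasureTheory ProbabilityTheory Vale.Agent.P146

variable {n : ℕ}

attribute [local instance] Interp.isProb

/-- The derivative representation with the coefficient of the unsplit replica assignment. -/
theorem DL_Fen_leading {β : ℝ} (hβ : 0 ≤ β) (r : ℕ) (hr : 2 ≤ r) :
    ∃ c : (Fin r → Fin r) → ℝ, (∑ σ, |c σ| ≤ (2 * β * r) ^ r) ∧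
      (c (fun _ => ⟨0, by omega⟩) = β ^ r) ∧
      (∀ σ, c σ ≠ 0 → σ ⟨0, by omega⟩ = ⟨0, by omega⟩) ∧
      ∀ (L : Fin r → Fin n × Fin n) (g : Cfg n),
        DL (List.ofFn L) (Fen β) g = ∑ σ, c σ * repAvg β σ L g := by
  classical
  induction r, hr using Nat.le_induction with
  | base =>
    refine ⟨fun σ => (if σ = extMap id 0 then β ^ 2 else 0) -
      (if σ = extMap id (Fin.last 1) then β ^ 2 else 0), ?_, ?_, ?_, fun L g => ?_⟩
    · refine (Finset.sum_le_sum fun σ _ => abs_sub _ _).trans ?_
      rw [Finset.sum_add_distrib]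
      simp only [apply_ite abs, abs_zero, Finset.sum_ite_eq', Finset.mem_univ, if_true,
        abs_of_nonneg (sq_nonneg β)]
      norm_num
      nlinarith [sq_nonneg β]
    · have h1 : (fun _ => (⟨0, by omega⟩ : Fin 2)) = extMap (id : Fin 1 → Fin 1) 0 := by decide
      have h2 : extMap (id : Fin 1 → Fin 1) 0 ≠ extMap id (Fin.last 1) := by decide
      rw [h1]
      simp only [if_true, if_neg h2, sub_zero]
    · intro σ hσ
      by_cases h1 : σ = extMap id 0
      · subst h1; decide
      · by_cases h2 : σ = extMap id (Fin.last 1)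
        · subst h2; decide
        · simp only [if_neg h1, if_neg h2, sub_zero, ne_eq, not_true] at hσ
    · simp only [sub_mul, ite_mul, zero_mul, Finset.sum_sub_distrib, Finset.sum_ite_eq',
        Finset.mem_univ, if_true]
      exact DL_Fen_two β L g
  | succ r hr ih =>
    obtain ⟨c, hc, hlead, hzero, hrep⟩ := ih
    let C : (Fin (r + 1) → Fin (r + 1)) → ℝ := fun τ => ∑ σ : Fin r → Fin r,
      (∑ j : Fin r, (if τ = extMap σ j.castSucc then c σ * β else 0)
        - if τ = extMap σ (Fin.last r) then c σ * β * r else 0)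
    have hval0 : ∀ (σ : Fin r → Fin r) (j : Fin (r + 1)),
        extMap σ j ⟨0, by omega⟩ = (σ ⟨0, by omega⟩).castSucc := by
      intro σ j
      rw [show (⟨0, by omega⟩ : Fin (r + 1)) = (⟨0, by omega⟩ : Fin r).castSucc from rfl, extMap,
        Fin.snoc_castSucc]
    refine ⟨C, ?_, ?_, ?_, fun L g => ?_⟩
    · calc ∑ τ, |C τ| ≤ ∑ τ : Fin (r + 1) → Fin (r + 1), ∑ σ : Fin r → Fin r,
            (∑ j : Fin r, (if τ = extMap σ j.castSucc then |c σ| * β else 0)
              + if τ = extMap σ (Fin.last r) then |c σ| * β * r else 0) := by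
            refine Finset.sum_le_sum fun τ _ => (Finset.abs_sum_le_sum_abs _ _).trans
              (Finset.sum_le_sum fun σ _ => (abs_sub _ _).trans (add_le_add
                ((Finset.abs_sum_le_sum_abs _ _).trans (le_of_eq ?_)) (le_of_eq ?_)))
            · refine Finset.sum_congr rfl fun j _ => ?_
              split_ifs <;> simp [abs_mul, abs_of_nonneg hβ]
            · split_ifs <;> simp [abs_mul, abs_of_nonneg hβ]
        _ = ∑ σ : Fin r → Fin r, |c σ| * (2 * β * r) := by
            rw [Finset.sum_comm]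
            refine Finset.sum_congr rfl fun σ _ => ?_
            rw [Finset.sum_add_distrib, Finset.sum_comm]
            simp
            ring
        _ ≤ (2 * β * r) ^ r * (2 * β * r) := by
            rw [← Finset.sum_mul]
            exact mul_le_mul_of_nonneg_right hc (by positivity)
        _ ≤ (2 * β * ((r + 1 : ℕ) : ℝ)) ^ (r + 1) := by
            rw [← pow_succ]
            gcongr
            linarith
    · set z : Fin r := ⟨0, by omega⟩ with hz
      have hiff : ∀ (σ : Fin r → Fin r) (j : Fin (r + 1)),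
          ((fun _ => (⟨0, by omega⟩ : Fin (r + 1))) = extMap σ j) ↔
            σ = (fun _ => z) ∧ j = z.castSucc := by
        intro σ j
        constructor
        · intro h
          refine ⟨funext fun i => Fin.castSucc_injective _ ?_, ?_⟩
          · have := congrFun h i.castSucc
            simp only [extMap, Fin.snoc_castSucc] at this
            rw [← this]; rfl
          · have := congrFun h (Fin.last r)
            simp only [extMap, Fin.snoc_last] at this
            rw [← this]; rfl
        · rintro ⟨rfl, rfl⟩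
          funext i
          induction i using Fin.lastCases with
          | last => simp [extMap, hz]
          | cast i => simp [extMap, hz]
      show C (fun _ => ⟨0, by omega⟩) = _
      simp only [C, hiff, Fin.castSucc_inj, ite_and, pow_succ]
      rw [Finset.sum_eq_single (fun _ => z)]
      · have : (Fin.last r) ≠ z.castSucc := fun h => (Fin.castSucc_lt_last z).ne h.symm
        clear_value z
        simp [this, hlead]
      · intro σ _ hσ
        simp [hσ]
      · simp
    · intro τ hτ
      obtain ⟨σ, -, hσ⟩ := Finset.exists_ne_zero_of_sum_ne_zero hτ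
      have hex : ∃ j : Fin (r + 1), τ = extMap σ j ∧ c σ ≠ 0 := by
        by_contra hne
        push Not at hne
        apply hσ
        have h1 : ∀ j : Fin r, (if τ = extMap σ j.castSucc then c σ * β else 0) = 0 := fun j => by
          split_ifs with h
          · simp [hne _ h]
          · rfl
        simp only [h1, Finset.sum_const_zero, zero_sub, neg_eq_zero]
        split_ifs with h
        · simp [hne _ h]
        · rfl
      obtain ⟨j, rfl, hcσ⟩ := hex
      rw [hval0, hzero σ hcσ]
      rfl
    · have hT : ∀ σ : Fin r → Fin r, Tame (repAvg β σ fun i => L i.castSucc) := fun σ =>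
        Tame.sum _ fun t _ => (Tame.prod _ fun j _ => Tame.gibbs β (t j)).mul (Tame.const _)
      rw [List.ofFn_succ', List.concat_eq_append, DL_append]
      show Dab (L (Fin.last r)) (DL (List.ofFn fun i => L i.castSucc) (Fen β)) g = _
      rw [show DL (List.ofFn fun i => L i.castSucc) (Fen β) = fun g' =>
        ∑ σ : Fin r → Fin r, c σ * repAvg β σ (fun i => L i.castSucc) g' from
          funext fun g' => hrep _ g']
      simp only [Dab]
      rw [pd_sum _ _ fun σ _ => (hT σ).const_mul _]
      simp only [fun σ c' => pd_const_mul s((L (Fin.last r)).1, (L (Fin.last r)).2) c' (hT σ),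
        Finset.mul_sum]
      have key : ∀ σ : Fin r → Fin r,
          dfac (L (Fin.last r)).1 (L (Fin.last r)).2 * Real.sqrt n *
            (c σ * pd s((L (Fin.last r)).1, (L (Fin.last r)).2)
              (repAvg β σ fun i => L i.castSucc) g) =
          ∑ τ : Fin (r + 1) → Fin (r + 1),
            (∑ j : Fin r, (if τ = extMap σ j.castSucc then c σ * β else 0)
              - if τ = extMap σ (Fin.last r) then c σ * β * r else 0) * repAvg β τ L g := by
        intro σ
        have h := Dab_repAvg β σ L g
        simp only [Dab] at h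
        simp only [sub_mul, Finset.sum_mul, ite_mul, zero_mul, Finset.sum_sub_distrib]
        rw [Finset.sum_comm]
        simp only [Finset.sum_ite_eq', Finset.mem_univ, if_true, ← Finset.mul_sum]
        linear_combination (c σ) * h
      rw [Finset.sum_congr rfl fun σ _ => key σ, Finset.sum_comm]
      refine Finset.sum_congr rfl fun τ _ => ?_
      rw [← Finset.sum_mul]

/-- The edges of the cycle through `x 0, x 1, …`. -/
def cyc {m : ℕ} (x : Fin (m + 3) → Fin n) (i : Fin (m + 3)) : Fin n × Fin n := (x i, x (i + 1))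

theorem repAvg_factor {r : ℕ} (β : ℝ) (σ : Fin r → Fin r) (L : Fin r → Fin n × Fin n) (g : Cfg n) :
    repAvg β σ L g = ∏ j, ∑ s, gibbs β g s * ∏ i with σ i = j, bond s (L i) := by
  classical
  rw [Fintype.prod_sum, repAvg]
  refine Finset.sum_congr rfl fun t _ => ?_
  rw [Finset.prod_mul_distrib]
  congr 1
  rw [← Finset.prod_fiberwise (Finset.univ) σ fun i => bond (t (σ i)) (L i)]
  refine Finset.prod_congr rfl fun j _ => Finset.prod_congr rfl fun i hi => ?_
  rw [(Finset.mem_filter.1 hi).2]

theorem abs_prod_bond {α : Type*} (S : Finset α) (s : Fin n → Bool) (L : α → Fin n × Fin n) :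
    |∏ i ∈ S, bond s (L i)| ≤ 1 := by
  rw [Finset.abs_prod]
  exact (Finset.prod_eq_one fun i _ => by simp [bond, abs_mul, abs_spin']).le

theorem abs_gibbs_avg_le (β : ℝ) (g : Cfg n) (A : (Fin n → Bool) → ℝ) (hA : ∀ s, |A s| ≤ 1) :
    |∑ s, gibbs β g s * A s| ≤ 1 := by
  calc _ ≤ ∑ s, |gibbs β g s * A s| := Finset.abs_sum_le_sum_abs _ _
    _ ≤ ∑ s, gibbs β g s := Finset.sum_le_sum fun s _ => by
        rw [abs_mul, abs_of_nonneg (gibbs_nonneg β g s)]
        exact mul_le_of_le_one_right (gibbs_nonneg β g s) (hA s)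
    _ = 1 := gibbs_sum β g

/-- The unsplit assignment gives one. -/
theorem repAvg_const {m : ℕ} (β : ℝ) (x : Fin (m + 3) → Fin n) (g : Cfg n) :
    repAvg β (fun _ => (0 : Fin (m + 3))) (cyc x) g = 1 := by
  rw [repAvg_factor, Finset.prod_eq_single (0 : Fin (m + 3))]
  · have h : ∀ s : Fin n → Bool, ∏ i, bond s (cyc x i) = 1 := by
      intro s
      simp only [bond, cyc, Finset.prod_mul_distrib]
      have h := Equiv.prod_comp (Equiv.addRight (1 : Fin (m + 3))) fun i => spin (s (x i))
      simp only [Equiv.coe_addRight] at h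
      rw [h, ← Finset.prod_mul_distrib]
      simp [spin_sq]
    simp [h, gibbs_sum]
  · intro j _ hj
    have : (Finset.univ.filter fun _i : Fin (m + 3) => (0 : Fin (m + 3)) = j) = ∅ :=
      Finset.filter_eq_empty_iff.2 fun i _ h => hj h.symm
    simp [this, gibbs_sum]
  · simp

/-- A split assignment is a Gibbs mean with a free spin. -/
theorem sum_repAvg_split {m : ℕ} (β : ℝ) (g : Cfg n) (σ : Fin (m + 3) → Fin (m + 3))
    (h0 : σ 0 = 0) (hne : σ ≠ fun _ => 0) {t : ℝ} (ht : 0 < t) :
    ∑ x : Fin (m + 3) → Fin n, |repAvg β σ (cyc x) g| ≤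
      (n : ℝ) ^ (m + 3) * (t / 2 + t / 4 + ov2 β g / (4 * t ^ 3)) := by
  classical
  set S : Finset (Fin (m + 3)) := Finset.univ.filter fun i => σ i = 0 with hS
  obtain ⟨v, hv, hw⟩ : ∃ v, v ∈ S ∧ v + 1 ∉ S := by
    by_contra hcl
    push Not at hcl
    have : ∀ i : Fin (m + 3), i ∈ S := by
      intro i
      induction i using Fin.induction with
      | zero => simp [hS, h0]
      | succ i ih => rw [← Fin.coeSucc_eq_succ]; exact hcl _ ih
    exact hne (funext fun i => (Finset.mem_filter.1 (this i)).2)
  set w := v + 1 with hwdef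
  have hle : ∀ x, |repAvg β σ (cyc x) g| ≤
      |∑ s, gibbs β g s * ∏ i ∈ S, bond s (cyc x i)| := by
    intro x
    rw [repAvg_factor, ← Finset.mul_prod_erase Finset.univ _ (Finset.mem_univ (0 : Fin (m + 3))),
      abs_mul, Finset.abs_prod]
    refine mul_le_of_le_one_right (abs_nonneg _) (Finset.prod_le_one (fun j _ => abs_nonneg _)
      fun j _ => abs_gibbs_avg_le β g _ fun s => abs_prod_bond _ s _)
  refine (Finset.sum_le_sum fun x _ => hle x).trans ?_
  rw [← (Equiv.piSplitAt w fun _ : Fin (m + 3) => Fin n).symm.sum_comp, Fintype.sum_prod_type,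
    Finset.sum_comm]
  have hrest : ∀ (y : ∀ j : {j // j ≠ w}, Fin n), ∑ a : Fin n, |∑ s, gibbs β g s *
      ∏ i ∈ S, bond s (cyc ((Equiv.piSplitAt w fun _ : Fin (m + 3) => Fin n).symm (a, y)) i)| ≤
      n * (t / 2 + t / 4 + ov2 β g / (4 * t ^ 3)) := by
    intro y
    set e := (Equiv.piSplitAt w fun _ : Fin (m + 3) => Fin n).symm with he
    have hoff : ∀ a (j : Fin (m + 3)) (hj : j ≠ w), e (a, y) j = y ⟨j, hj⟩ := fun a j hj => by
      simp [he, Equiv.piSplitAt, hj]
    have hon : ∀ a, e (a, y) w = a := fun a => by simp [he, Equiv.piSplitAt]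
    have hvw : v ≠ w := fun h => hw (h ▸ hv)
    set A : (Fin n → Bool) → ℝ := fun s => spin (s (y ⟨v, hvw⟩)) *
      ∏ i ∈ (S.erase v).attach, bond s
        (y ⟨i.1, fun h => hw (h ▸ (Finset.mem_erase.1 i.2).2)⟩,
         y ⟨i.1 + 1, fun h => (Finset.mem_erase.1 i.2).1 (add_right_cancel h)⟩)
    have hA : ∀ s, |A s| ≤ 1 := fun s => by
      simp only [A, abs_mul, abs_spin', one_mul]
      exact abs_prod_bond _ s _
    refine le_trans (le_of_eq ?_) (sum_abs_gibbs_spin β g A hA ht)
    refine Finset.sum_congr rfl fun a _ => congrArg _ (Finset.sum_congr rfl fun s _ => ?_)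
    congr 1
    rw [← Finset.mul_prod_erase S _ hv, ← Finset.prod_attach (S.erase v)]
    simp only [A, bond, cyc]
    rw [hoff a v hvw, hon]
    rw [mul_right_comm]
    congr 1
    congr 1
    refine Finset.prod_congr rfl fun i _ => ?_
    rw [hoff, hoff]
  refine (Finset.sum_le_sum fun y _ => hrest y).trans (le_of_eq ?_)
  rw [Finset.sum_const, nsmul_eq_mul, ← mul_assoc]
  congr 1
  have hc : Fintype.card {j : Fin (m + 3) // j ≠ w} = m + 2 := by
    rw [Fintype.card_subtype_compl, Fintype.card_fin, Fintype.card_subtype_eq]; omega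
  simp [hc, pow_succ]

/-- The expected cycle derivative is at least `β^k` minus the mean overlap. -/
theorem chat_cyc_ge {m : ℕ} {β : ℝ} (hβ : 0 ≤ β) {t : ℝ} (ht : 0 < t)
    (x₀ : Fin (m + 3) → Fin n) (hx₀ : Function.Injective x₀) :
    (n.descFactorial (m + 3) : ℝ) * β ^ (m + 3) -
        (2 * β * (m + 3 : ℕ)) ^ (m + 3) * ((n : ℝ) ^ (m + 3) *
          (t / 2 + t / 4 + mean (ov2 (n := n) β) / (4 * t ^ 3))) ≤
      (n.descFactorial (m + 3) : ℝ) * chat β (List.ofFn (cyc x₀)) := by
  classical
  obtain ⟨c, hc, hlead, hzero, hrep⟩ := DL_Fen_leading (n := n) hβ (m + 3) (by omega)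
  set I : Finset (Fin (m + 3) → Fin n) := Finset.univ.filter Function.Injective with hI
  have hcard : I.card = n.descFactorial (m + 3) := by
    rw [hI, ← Fintype.card_subtype, Fintype.card_congr (Equiv.subtypeInjectiveEquivEmbedding _ _),
      Fintype.card_embedding_eq, Fintype.card_fin, Fintype.card_fin]
  have hsame : ∀ x ∈ I, chat β (List.ofFn (cyc x)) = chat β (List.ofFn (cyc x₀)) := by
    intro x hx
    have hxi : Function.Injective x := (Finset.mem_filter.1 hx).2
    obtain ⟨π, hπ⟩ : ∃ π : Equiv.Perm (Fin n), ∀ i, π (x₀ i) = x i := by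
      let e := (Equiv.ofInjective x₀ hx₀).symm.trans (Equiv.ofInjective x hxi)
      refine ⟨e.extendSubtype, fun i => ?_⟩
      rw [Equiv.extendSubtype_apply_of_mem _ _ (Set.mem_range_self i)]
      simp [e]
    rw [← chat_perm β π (List.ofFn (cyc x₀)), List.map_ofFn]
    congr 2
    funext i
    simp [cyc, hπ]
  have hTr : ∀ (σ : Fin (m + 3) → Fin (m + 3)) (x : Fin (m + 3) → Fin n),
      Tame (repAvg β σ (cyc x)) := fun σ x =>
    Tame.sum _ fun t _ => (Tame.prod _ fun j _ => Tame.gibbs β (t j)).mul (Tame.const _)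
  have hsum : (n.descFactorial (m + 3) : ℝ) * chat β (List.ofFn (cyc x₀)) =
      ∫ g, ∑ x ∈ I, ∑ σ, c σ * repAvg β σ (cyc x) g ∂gauss (Edge n) := by
    rw [integral_finsetSum _ fun x _ => (Tame.sum _ fun σ _ => (hTr σ x).const_mul _).integrable,
      ← hcard, ← nsmul_eq_mul, ← Finset.sum_const]
    refine Finset.sum_congr rfl fun x hx => ?_
    rw [← hsame x hx, chat, mean]
    exact integral_congr_ae (Filter.Eventually.of_forall fun g => hrep _ g)
  rw [hsum]
  calc _ = ∫ g, ((n.descFactorial (m + 3) : ℝ) * β ^ (m + 3) -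
        (2 * β * (m + 3 : ℕ)) ^ (m + 3) * ((n : ℝ) ^ (m + 3) *
          (t / 2 + t / 4 + ov2 β g / (4 * t ^ 3)))) ∂gauss (Edge n) := by
        have hi : Integrable (ov2 (n := n) β) (gauss (Edge n)) := (tame_ov2 β).integrable
        have h2 : Integrable (fun g => t / 2 + t / 4 + ov2 β g / (4 * t ^ 3)) (gauss (Edge n)) :=
          (integrable_const _).add (hi.div_const _)
        rw [integral_sub (integrable_const _) ((h2.const_mul _).const_mul _),
          integral_const_mul ((2 * β * ((m + 3 : ℕ) : ℝ)) ^ (m + 3)),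
          integral_const_mul ((n : ℝ) ^ (m + 3)) fun g => t / 2 + t / 4 + ov2 β g / (4 * t ^ 3),
          integral_add (integrable_const _) (hi.div_const _), integral_div]
        simp [mean]
    _ ≤ _ := by
        refine integral_mono ((Tame.const _).sub ((((Tame.const _).add
            (((tame_ov2 β).mul (Tame.const (4 * t ^ 3)⁻¹)))).const_mul _).const_mul _)).integrable
          (Tame.sum _ fun x _ => Tame.sum _ fun σ _ => (hTr σ x).const_mul _).integrable fun g => ?_
        set B := t / 2 + t / 4 + ov2 β g / (4 * t ^ 3)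
        have hB : 0 ≤ B := by have := ov2_nonneg β g; positivity
        set σ₀ : Fin (m + 3) → Fin (m + 3) := fun _ => 0
        show _ ≤ ∑ x ∈ I, ∑ σ, c σ * repAvg β σ (cyc x) g
        rw [Finset.sum_comm, ← Finset.add_sum_erase _ _ (Finset.mem_univ σ₀)]
        have h1 : ∑ x ∈ I, c σ₀ * repAvg β σ₀ (cyc x) g =
            (n.descFactorial (m + 3) : ℝ) * β ^ (m + 3) := by
          simp only [σ₀, repAvg_const, mul_one, Finset.sum_const, nsmul_eq_mul, hcard]
          congr 1
        have h2 : |∑ σ ∈ Finset.univ.erase σ₀, ∑ x ∈ I, c σ * repAvg β σ (cyc x) g| ≤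
            (2 * β * (m + 3 : ℕ)) ^ (m + 3) * ((n : ℝ) ^ (m + 3) * B) := by
          refine (Finset.abs_sum_le_sum_abs _ _).trans (le_trans (Finset.sum_le_sum
            (g := fun σ => |c σ| * ((n : ℝ) ^ (m + 3) * B)) fun σ hσ => ?_) ?_)
          · rw [← Finset.mul_sum, abs_mul]
            by_cases hcσ : c σ = 0
            · simp [hcσ]
            refine mul_le_mul_of_nonneg_left ((Finset.abs_sum_le_sum_abs _ _).trans
              ((Finset.sum_le_sum_of_subset_of_nonneg (Finset.subset_univ _)
                fun x _ _ => abs_nonneg _).trans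
                (sum_repAvg_split β g σ (hzero σ hcσ) (Finset.ne_of_mem_erase hσ) ht))) (abs_nonneg _)
          · rw [← Finset.sum_mul]
            exact mul_le_mul_of_nonneg_right ((Finset.sum_le_sum_of_subset_of_nonneg
              (Finset.erase_subset _ _) fun σ _ _ => abs_nonneg _).trans hc) (by positivity)
        have := (abs_le.1 h2).1
        rw [h1]
        linarith

/-- The multi-order of a cycle. -/
def cycOrd {m : ℕ} (x : Fin (m + 3) → Fin n) : Edge n → ℕ :=
  fun e => (List.ofFn fun i => s(x i, x (i + 1))).count e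

theorem one_ne {m : ℕ} (i : Fin (m + 3)) : i + 1 ≠ i := by simp

theorem two_ne {m : ℕ} (i : Fin (m + 3)) : i + 1 + 1 ≠ i := by
  rw [add_assoc, Ne, add_eq_left, Fin.ext_iff]
  simp [Fin.val_add, Nat.mod_eq_of_lt (show 2 < m + 3 by omega)]

theorem cyc_edge_injective {m : ℕ} (x : Fin (m + 3) → Fin n) (hx : Function.Injective x) :
    Function.Injective fun i => s(x i, x (i + 1)) := by
  intro i j h
  simp only [Sym2.eq_iff] at h
  rcases h with ⟨h1, -⟩ | ⟨h1, h2⟩
  · exact hx h1
  · have e1 := hx h1
    have e2 := hx h2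
    exact absurd (show j + 1 + 1 = j by rw [← e1]; exact e2) (two_ne j)

theorem cycOrd_perm {m : ℕ} (x : Fin (m + 3) → Fin n) :
    ((List.ofFn (cyc x)).map fun p => s(p.1, p.2)).Perm (multiList (cycOrd x)) := by
  classical
  rw [List.perm_iff_count]
  intro e
  rw [Interp.count_multiList, List.map_ofFn]
  rfl

theorem length_multiList' {ι : Type*} [Fintype ι] (α : ι → ℕ) :
    (multiList α).length = ∑ e, α e := by
  simp [multiList, List.length_flatMap, Finset.sum_map_toList]

theorem cycOrd_mem {m : ℕ} (x : Fin (m + 3) → Fin n) :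
    cycOrd x ∈ orders (Edge n) (m + 3) := by
  classical
  simp only [orders, Finset.mem_piAntidiag, Finset.mem_univ, implies_true, and_true]
  rw [← length_multiList', ← (cycOrd_perm x).length_eq]
  simp

theorem cycOrd_le_one {m : ℕ} (x : Fin (m + 3) → Fin n) (hx : Function.Injective x) (e : Edge n) :
    cycOrd x e ≤ 1 :=
  List.nodup_iff_count_le_one.1 (List.nodup_ofFn.2 (cyc_edge_injective x hx)) e

theorem wgt_cycOrd {m : ℕ} (x : Fin (m + 3) → Fin n) (hx : Function.Injective x) :
    wgt (cycOrd x) = 1 := by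
  simp [wgt, Finset.prod_eq_one fun e _ => Nat.factorial_eq_one.2 (cycOrd_le_one x hx e)]

/-- An injective cycle is determined by its edges and its first edge. -/
theorem cycOrd_eq {m : ℕ} {x y : Fin (m + 3) → Fin n} (hx : Function.Injective x)
    (hy : Function.Injective y) (h : cycOrd x = cycOrd y) (h0 : x 0 = y 0) (h1 : x 1 = y 1) :
    x = y := by
  have main : ∀ i : Fin (m + 3), x i = y i ∧ x (i + 1) = y (i + 1) := by
    intro i
    induction i using Fin.induction with
    | zero => exact ⟨h0, by simpa using h1⟩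
    | succ i ih =>
      rw [← Fin.coeSucc_eq_succ]
      set j := i.castSucc
      refine ⟨ih.2, ?_⟩
      have hmem : s(y (j + 1), y (j + 1 + 1)) ∈ List.ofFn fun i => s(x i, x (i + 1)) := by
        rw [← List.count_pos_iff]
        show 0 < cycOrd x _
        rw [h]
        exact List.count_pos_iff.2 (List.mem_ofFn.2 ⟨j + 1, rfl⟩)
      obtain ⟨k, hk⟩ := List.mem_ofFn.1 hmem
      rcases Sym2.eq_iff.1 hk with ⟨a, b⟩ | ⟨a, b⟩
      · rw [← ih.2] at a
        have hk' := hx a
        rw [hk'] at b; exact b
      · rw [← ih.2] at b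
        have hkj : k = j := add_right_cancel (hx b)
        rw [hkj, ih.1] at a
        exact absurd (hy a).symm (two_ne j)
  exact funext fun i => (main i).1

/-- At most `2k` injective sequences give the same cycle. -/
theorem cycOrd_fiber {m : ℕ} (α : Edge n → ℕ) :
    ((Finset.univ.filter fun x : Fin (m + 3) → Fin n => Function.Injective x).filter
      fun x => cycOrd x = α).card ≤ 2 * (m + 3) := by
  classical
  set T := (Finset.univ.filter fun x : Fin (m + 3) → Fin n => Function.Injective x).filter
      fun x => cycOrd x = α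
  rcases T.eq_empty_or_nonempty with h | ⟨x, hx⟩
  · simp [h]
  simp only [T, Finset.mem_filter, Finset.mem_univ, true_and] at hx
  set U : Finset (Fin n × Fin n) := (Finset.univ : Finset (Fin (m + 3) × Bool)).image fun p =>
    bif p.2 then (x (p.1 + 1), x p.1) else (x p.1, x (p.1 + 1))
  calc T.card ≤ U.card := by
        refine Finset.card_le_card_of_injOn (fun y => (y 0, y 1)) (fun y hy => ?_) ?_
        · simp only [T, Finset.mem_coe, Finset.mem_filter, Finset.mem_univ, true_and] at hy
          have hmem : s(y 0, y 1) ∈ List.ofFn fun i => s(x i, x (i + 1)) := by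
            rw [← List.count_pos_iff]
            show 0 < cycOrd x _
            rw [hx.2, ← hy.2]
            exact List.count_pos_iff.2 (List.mem_ofFn.2 ⟨0, by simp⟩)
          obtain ⟨k, hk⟩ := List.mem_ofFn.1 hmem
          rcases Sym2.eq_iff.1 hk with ⟨a, b⟩ | ⟨a, b⟩
          · exact Finset.mem_image.2 ⟨(k, false), Finset.mem_univ _, by simp [a, b]⟩
          · exact Finset.mem_image.2 ⟨(k, true), Finset.mem_univ _, by simp [a, b]⟩
        · intro y hy z hz hyz
          simp only [T, Finset.mem_coe, Finset.mem_filter, Finset.mem_univ, true_and] at hy hz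
          simp only [Prod.mk.injEq] at hyz
          exact cycOrd_eq hy.1 hz.1 (hy.2.trans hz.2.symm) hyz.1 hyz.2
    _ ≤ _ := Finset.card_image_le
    _ = _ := by simp [mul_comm]

end Vale.Agent.P146.NearOne
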