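import Vale.Agent.P146.Gibbs
import Vale.Agent.P146.Interp

/-!
Small overlap just above the critical temperature: convexity in the temperature and the
second moment of the partition function below it.
-/

namespace Vale.Agent.P146.NearOne

open MeasureTheory ProbabilityTheory Vale.Agent.P146

variable {n : ℕ}

attribute [local instance] Interp.isProb

/-- The scalar product of two configurations. -/
def spinDot (s u : Fin n → Bool) : ℝ := ∑ a, spin (s a) * spin (u a)

/-- The Gibbs mean of the energy. -/
noncomputable def eAvg (β : ℝ) (g : Cfg n) : ℝ := ∑ s, gibbs β g s * energy g s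

/-- The Gibbs mean of the squared overlap of two replicas. -/
noncomputable def ov2 (β : ℝ) (g : Cfg n) : ℝ :=
  ∑ s, ∑ u, gibbs β g s * gibbs β g u * (spinDot s u / n) ^ 2

theorem spin_sq (b : Bool) : spin b * spin b = 1 := by cases b <;> norm_num [spin]

theorem abs_spin' (b : Bool) : |spin b| = 1 := by cases b <;> simp [spin]

theorem spinDot_self (s : Fin n → Bool) : spinDot s s = n := by simp [spinDot, spin_sq]

theorem two_sum_pair (v : Fin n → ℝ) :
    2 * ∑ p : Pair n, v p.1.1 * v p.1.2 = (∑ a, v a) ^ 2 - ∑ a, v a ^ 2 := by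
  set f : Fin n × Fin n → ℝ := fun p => v p.1 * v p.2
  have h3 : ∑ p : Fin n × Fin n, (if p.1 < p.2 then f p else 0) = ∑ p : Pair n, f p.1 := by
    rw [← Finset.sum_filter]
    exact Finset.sum_subtype _ (by simp) f
  have h2 : ∑ p : Fin n × Fin n, (if p.2 < p.1 then f p else 0) =
      ∑ p : Fin n × Fin n, if p.1 < p.2 then f p else 0 := by
    rw [← (Equiv.prodComm _ _).sum_comp]
    refine Finset.sum_congr rfl fun p _ => ?_
    simp [f, mul_comm]
  have h0 : ∑ p : Fin n × Fin n, (if p.1 = p.2 then f p else 0) = ∑ a, v a ^ 2 := by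
    rw [Fintype.sum_prod_type]; simp [f, sq]
  have h1 : (∑ a, v a) ^ 2 = ∑ p : Fin n × Fin n, ((if p.1 < p.2 then f p else 0) +
      (if p.2 < p.1 then f p else 0) + if p.1 = p.2 then f p else 0) := by
    rw [sq, Finset.sum_mul_sum, Fintype.sum_prod_type]
    refine Finset.sum_congr rfl fun a _ => Finset.sum_congr rfl fun b _ => ?_
    rcases lt_trichotomy a b with h | h | h
    · simp [h, h.ne, not_lt.2 h.le, f]
    · simp [h, f]
    · simp [h, h.ne', not_lt.2 h.le, f]
  rw [h1, Finset.sum_add_distrib, Finset.sum_add_distrib, h0, h2, h3]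
  simp only [f]; ring

theorem sum_slope_mul (s u : Fin n → Bool) :
    ∑ p : Pair n, slope s p * slope u p = (spinDot s u ^ 2 - n) / (2 * n) := by
  rcases Nat.eq_zero_or_pos n with rfl | hn
  · have : IsEmpty (Pair 0) := ⟨fun p => p.1.1.elim0⟩
    simp
  have hn' : (0 : ℝ) < n := by exact_mod_cast hn
  have h := two_sum_pair fun a => spin (s a) * spin (u a)
  have h2 : ∑ a, (spin (s a) * spin (u a)) ^ 2 = (n : ℝ) := by
    have : ∀ a, (spin (s a) * spin (u a)) ^ 2 = 1 := fun a => by
      rw [mul_pow, sq, sq, spin_sq, spin_sq, one_mul]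
    simp [this]
  rw [h2] at h
  rw [eq_div_iff (by positivity)]
  rw [show spinDot s u ^ 2 - n = 2 * ∑ p : Pair n,
    spin (s p.1.1) * spin (u p.1.1) * (spin (s p.1.2) * spin (u p.1.2)) from h.symm,
    Finset.sum_mul, Finset.mul_sum]
  refine Finset.sum_congr rfl fun p _ => ?_
  have hs : Real.sqrt n * Real.sqrt n = n := Real.mul_self_sqrt hn'.le
  simp only [slope]
  field_simp
  rw [Real.sq_sqrt hn'.le]
  ring

theorem energy_eq_edge (g : Cfg n) (s : Fin n → Bool) :
    energy g s = ∑ e, g e * dEnergy s e := by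
  classical
  rw [energy_eq]
  simp only [dEnergy, Finset.mul_sum, mul_ite, mul_zero]
  rw [Finset.sum_comm]
  simp

theorem sum_dEnergy_mul (s u : Fin n → Bool) :
    ∑ e, dEnergy s e * dEnergy u e = (spinDot s u ^ 2 - n) / (2 * n) := by
  classical
  rw [← sum_slope_mul]
  have h : ∀ p, dEnergy u (pairEdge p) = slope u p := fun p => by
    rw [dEnergy, Finset.sum_eq_single p]
    · simp
    · exact fun q _ hq => if_neg fun h => hq (pairEdge_injective h)
    · simp
  conv_lhs => enter [2, e]; rw [dEnergy, Finset.sum_mul]; simp only [ite_mul, zero_mul]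
  rw [Finset.sum_comm]
  simp [h]

/-- The partition function. -/
noncomputable def part1 (β : ℝ) (g : Cfg n) : ℝ := ∑ s : Fin n → Bool, Real.exp (β * energy g s)

/-- Exponentials of linear forms are integrable, with the Gaussian integral. -/
theorem exp_linear {ι : Type*} [Fintype ι] (c : ι → ℝ) :
    Integrable (fun g : ι → ℝ => Real.exp (∑ e, g e * c e)) (gauss ι) ∧
      ∫ g, Real.exp (∑ e, g e * c e) ∂gauss ι = Real.exp (∑ e, c e ^ 2 / 2) := by
  have h1 : ∀ t : ℝ, ∫ x, Real.exp (x * t) ∂gaussianReal 0 1 = Real.exp (t ^ 2 / 2) := by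
    intro t
    have h := congrFun (mgf_id_gaussianReal (μ := (0 : ℝ)) (v := (1 : NNReal))) t
    simp only [mgf, id_eq, zero_mul, zero_add, NNReal.coe_one, one_mul] at h
    simpa [mul_comm] using h
  have h2 : ∀ t : ℝ, Integrable (fun x => Real.exp (x * t)) (gaussianReal 0 1) := fun t => by
    simpa [mul_comm] using integrable_exp_mul_gaussianReal (μ := (0 : ℝ)) (v := (1 : NNReal)) t
  simp only [Real.exp_sum]
  refine ⟨Integrable.fintype_prod fun e => h2 (c e), ?_⟩
  rw [gauss, integral_fintype_prod_eq_prod (fun e x => Real.exp (x * c e))]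
  simp [h1]

theorem exp_energy (β : ℝ) (s : Fin n → Bool) :
    Integrable (fun g : Cfg n => Real.exp (β * energy g s)) (gauss (Edge n)) ∧
      mean (fun g : Cfg n => Real.exp (β * energy g s)) =
        Real.exp (β ^ 2 * ((n : ℝ) ^ 2 - n) / (4 * n)) := by
  have h := exp_linear (fun e => β * dEnergy s e)
  have e1 : (fun g : Cfg n => Real.exp (β * energy g s)) =
      fun g => Real.exp (∑ e, g e * (β * dEnergy s e)) := by
    funext g; rw [energy_eq_edge, Finset.mul_sum]
    congr 1; exact Finset.sum_congr rfl fun e _ => by ring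
  rw [mean, e1]
  refine ⟨h.1, h.2.trans ?_⟩
  congr 1
  calc ∑ e, (β * dEnergy s e) ^ 2 / 2 = β ^ 2 / 2 * ∑ e, dEnergy s e * dEnergy s e := by
        rw [Finset.mul_sum]; exact Finset.sum_congr rfl fun e _ => by ring
    _ = _ := by rw [sum_dEnergy_mul, spinDot_self]; ring

/-- The mean of the partition function. -/
noncomputable def annealed (n : ℕ) (β : ℝ) : ℝ :=
  2 ^ n * Real.exp (β ^ 2 * ((n : ℝ) ^ 2 - n) / (4 * n))

theorem mean_part1 (β : ℝ) :
    Integrable (part1 (n := n) β) (gauss (Edge n)) ∧ mean (part1 (n := n) β) = annealed n β := by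
  refine ⟨integrable_finsetSum _ fun s _ => (exp_energy β s).1, ?_⟩
  rw [mean]
  simp only [part1]
  rw [integral_finsetSum _ fun s _ => (exp_energy β s).1]
  have h : ∀ s : Fin n → Bool, ∫ g, Real.exp (β * energy g s) ∂gauss (Edge n) =
      Real.exp (β ^ 2 * ((n : ℝ) ^ 2 - n) / (4 * n)) := fun s => (exp_energy β s).2
  simp only [h]
  simp [annealed]

theorem annealed_pos (n : ℕ) (β : ℝ) : 0 < annealed n β := by unfold annealed; positivity

theorem Fen_eq_log (β : ℝ) (g : Cfg n) : Fen β g = Real.log (part1 β g) := rfl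

theorem mean_Fen_le (β : ℝ) : mean (Fen (n := n) β) ≤ Real.log (annealed n β) := by
  have hc := annealed_pos n β
  calc mean (Fen (n := n) β)
      ≤ ∫ g, (part1 β g / annealed n β + (Real.log (annealed n β) - 1)) ∂gauss (Edge n) := by
        refine integral_mono (Tame.fen β).integrable
          (((mean_part1 β).1.div_const _).add (integrable_const _)) fun g => ?_
        have hp : 0 < part1 β g := partition_pos β g
        have h := Real.log_le_sub_one_of_pos (div_pos hp hc)
        rw [Real.log_div hp.ne' hc.ne'] at h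
        rw [Fen_eq_log]; linarith
    _ = _ := by
        rw [integral_add ((mean_part1 β).1.div_const _) (integrable_const _), integral_div]
        have := (mean_part1 (n := n) β).2
        simp only [mean] at this
        rw [this, div_self hc.ne']; simp

theorem sum_exp_spinDot (t : ℝ) :
    ∑ η : Fin n → Bool, Real.exp (t * ∑ a, spin (η a)) ≤ 2 ^ n * Real.exp (n * (t ^ 2 / 2)) := by
  have h : ∑ η : Fin n → Bool, Real.exp (t * ∑ a, spin (η a)) = (2 * Real.cosh t) ^ n := by
    simp only [Finset.mul_sum, Real.exp_sum]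
    rw [← Fintype.prod_sum (fun (_ : Fin n) b => Real.exp (t * spin b))]
    simp [spin, Real.cosh_eq]
    congr 1; ring
  rw [h, mul_pow, Real.exp_nat_mul]
  gcongr
  exact Real.cosh_le_exp_half_sq t

theorem integrable_exp_sq {γ : ℝ} (hγ : γ < 1) :
    Integrable (fun x : ℝ => Real.exp (γ * x ^ 2 / 2)) (gaussianReal 0 1) := by
  rw [gaussianReal_of_var_ne_zero 0 (by norm_num : (1 : NNReal) ≠ 0),
    integrable_withDensity_iff (measurable_gaussianPDF _ _)
      (Filter.Eventually.of_forall fun _ => gaussianPDF_lt_top)]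
  simp only [toReal_gaussianPDF, gaussianPDFReal]
  have h := (integrable_exp_neg_mul_sq (b := (1 - γ) / 2) (by linarith)).const_mul
    (Real.sqrt (2 * Real.pi * (1 : NNReal)))⁻¹
  refine h.congr (Filter.Eventually.of_forall fun x => ?_)
  simp only [NNReal.coe_one, sub_zero]
  rw [mul_left_comm, ← Real.exp_add]
  congr 2; ring

/-- The constant of the second moment. -/
noncomputable def gaussA (γ : ℝ) : ℝ := ∫ x, Real.exp (γ * x ^ 2 / 2) ∂gaussianReal 0 1

theorem sum_exp_sq {γ : ℝ} (h0 : 0 ≤ γ) (hγ : γ < 1) :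
    ∑ η : Fin n → Bool, Real.exp (γ * (∑ a, spin (η a)) ^ 2 / (2 * n)) ≤ 2 ^ n * gaussA γ := by
  rcases Nat.eq_zero_or_pos n with rfl | hn
  · have : 1 ≤ gaussA γ := by
      have h : ∫ _x, (1 : ℝ) ∂gaussianReal 0 1 ≤ gaussA γ :=
        integral_mono (integrable_const _) (integrable_exp_sq hγ) fun x =>
          Real.one_le_exp (by positivity)
      simpa using h
    simpa using this
  have hn' : (0 : ℝ) < n := by exact_mod_cast hn
  set c := Real.sqrt (γ / n) with hc
  have hc2 : c ^ 2 = γ / n := Real.sq_sqrt (by positivity)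
  have key : ∀ S : ℝ, Integrable (fun x => Real.exp (x * (c * S))) (gaussianReal 0 1) ∧
      ∫ x, Real.exp (x * (c * S)) ∂gaussianReal 0 1 = Real.exp (γ * S ^ 2 / (2 * n)) := by
    intro S
    refine ⟨by simpa [mul_comm] using
      integrable_exp_mul_gaussianReal (μ := (0 : ℝ)) (v := (1 : NNReal)) (c * S), ?_⟩
    have h := congrFun (mgf_id_gaussianReal (μ := (0 : ℝ)) (v := (1 : NNReal))) (c * S)
    simp only [mgf, id_eq, zero_mul, zero_add, NNReal.coe_one, one_mul] at h
    simp only [mul_comm _ (c * S)]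
    rw [h, mul_pow, hc2]; congr 1; ring
  rw [← Finset.sum_congr rfl fun η _ => (key _).2, ← integral_finsetSum _ fun η _ => (key _).1,
    gaussA, ← integral_const_mul]
  refine integral_mono (integrable_finsetSum _ fun η _ => (key _).1)
    ((integrable_exp_sq hγ).const_mul _) fun x => ?_
  calc ∑ η : Fin n → Bool, Real.exp (x * (c * ∑ a, spin (η a)))
      = ∑ η : Fin n → Bool, Real.exp (x * c * ∑ a, spin (η a)) := by simp only [mul_assoc]
    _ ≤ 2 ^ n * Real.exp (n * ((x * c) ^ 2 / 2)) := sum_exp_spinDot _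
    _ = _ := by rw [mul_pow, hc2]; congr 2; field_simp

/-- The second moment of the partition function below the critical temperature. -/
theorem second_moment {β : ℝ} (hβ : 0 ≤ β) (hβ1 : β < 1) :
    Integrable (fun g => part1 (n := n) β g ^ 2) (gauss (Edge n)) ∧
      mean (fun g => part1 (n := n) β g ^ 2) ≤ gaussA (β ^ 2) * annealed n β ^ 2 := by
  have hγ : β ^ 2 < 1 := by nlinarith
  have e1 : (fun g => part1 (n := n) β g ^ 2) = fun g => ∑ s : Fin n → Bool, ∑ u : Fin n → Bool,
      Real.exp (∑ e, g e * (β * dEnergy s e + β * dEnergy u e)) := by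
    funext g
    rw [sq, part1, Finset.sum_mul_sum]
    refine Finset.sum_congr rfl fun s _ => Finset.sum_congr rfl fun u _ => ?_
    rw [← Real.exp_add, energy_eq_edge, energy_eq_edge, Finset.mul_sum, Finset.mul_sum,
      ← Finset.sum_add_distrib]
    congr 1; exact Finset.sum_congr rfl fun e _ => by ring
  have hi : ∀ s u : Fin n → Bool, Integrable (fun g : Cfg n =>
      Real.exp (∑ e, g e * (β * dEnergy s e + β * dEnergy u e))) (gauss (Edge n)) :=
    fun s u => (exp_linear _).1
  rw [mean, e1]
  refine ⟨integrable_finsetSum _ fun s _ => integrable_finsetSum _ fun u _ => hi s u, ?_⟩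
  rw [integral_finsetSum _ fun s _ => integrable_finsetSum _ fun u _ => hi s u]
  have hone : ∀ s : Fin n → Bool, ∫ g, ∑ u : Fin n → Bool,
      Real.exp (∑ e, g e * (β * dEnergy s e + β * dEnergy u e)) ∂gauss (Edge n) ≤
      Real.exp (β ^ 2 * ((n : ℝ) ^ 2 - n) / (2 * n)) * (2 ^ n * gaussA (β ^ 2)) := by
    intro s
    rw [integral_finsetSum _ fun u _ => hi s u]
    simp only [(exp_linear _).2]
    refine le_trans ?_ (mul_le_mul_of_nonneg_left (sum_exp_sq (n := n) (sq_nonneg β) hγ)
      (Real.exp_pos _).le)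
    rw [Finset.mul_sum]
    let φ : (Fin n → Bool) ≃ (Fin n → Bool) :=
      Equiv.piCongrRight fun a => if s a then Equiv.refl Bool else Equiv.boolNot
    have hφ : ∀ u a, spin (φ u a) = spin (s a) * spin (u a) := by
      intro u a
      cases hs : s a <;> cases hu : u a <;> simp [φ, hs, hu, spin]
    conv_rhs => rw [← φ.sum_comp]
    refine Finset.sum_le_sum fun u _ => ?_
    simp only [hφ]
    rw [← Real.exp_add]
    refine Real.exp_le_exp.2 ?_
    calc ∑ e, (β * dEnergy s e + β * dEnergy u e) ^ 2 / 2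
        = β ^ 2 / 2 * (∑ e, dEnergy s e * dEnergy s e + 2 * ∑ e, dEnergy s e * dEnergy u e
            + ∑ e, dEnergy u e * dEnergy u e) := by
          simp only [Finset.mul_sum, ← Finset.sum_add_distrib]
          exact Finset.sum_congr rfl fun e _ => by ring
      _ ≤ _ := by
          rw [sum_dEnergy_mul, sum_dEnergy_mul, sum_dEnergy_mul, spinDot_self, spinDot_self]
          show _ ≤ _ + β ^ 2 * spinDot s u ^ 2 / (2 * n)
          rw [sub_div (spinDot s u ^ 2)]
          have : 0 ≤ (n : ℝ) / (2 * n) := by positivity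
          have := mul_nonneg (sq_nonneg β) this
          linear_combination this
  refine (Finset.sum_le_sum fun s _ => hone s).trans (le_of_eq ?_)
  simp [annealed, mul_pow, ← Real.exp_nat_mul]
  ring_nf

/-- Below the critical temperature the quenched free energy is annealed up to `O(√n)`. -/
theorem mean_Fen_ge {β : ℝ} (hβ : 0 ≤ β) (hβ1 : β < 1) :
    Real.log (annealed n β) - Real.log 2 - 2 * Real.sqrt (gaussA (β ^ 2) * n)
      ≤ mean (Fen (n := n) β) := by
  set m := annealed n β with hm
  set A := gaussA (β ^ 2)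
  have hm0 : 0 < m := annealed_pos n β
  have hγ : β ^ 2 < 1 := by nlinarith
  have hA : 1 ≤ A := by
    have h : ∫ _x, (1 : ℝ) ∂gaussianReal 0 1 ≤ A :=
      integral_mono (integrable_const _) (integrable_exp_sq hγ) fun x =>
        Real.one_le_exp (by positivity)
    simpa using h
  by_contra hcon
  push Not at hcon
  set μ := mean (Fen (n := n) β) with hμ
  set D := Real.log m - Real.log 2 - μ with hD
  have hD0 : 0 < D := by have := Real.sqrt_nonneg (A * n); linarith
  have hT : Tame (fun g => Fen (n := n) β g - μ) := (Tame.fen β).sub (Tame.const μ)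
  have hvarI := (hT.pow 2).integrable
  obtain ⟨hI2, hZ2⟩ := second_moment (n := n) hβ hβ1
  obtain ⟨hI1, hZ1⟩ := mean_part1 (n := n) β
  set lam := 1 / (4 * A * m) with hlam
  have hlam0 : 0 < lam := by positivity
  have hpt : ∀ g, part1 (n := n) β g ≤
      m / 2 + lam * part1 β g ^ 2 + (Fen β g - μ) ^ 2 * (1 / (4 * lam * D ^ 2)) := by
    intro g
    have hp : 0 < part1 β g := partition_pos β g
    by_cases h : part1 β g ≤ m / 2
    · have := mul_nonneg hlam0.le (sq_nonneg (part1 β g))
      have : 0 ≤ (Fen β g - μ) ^ 2 * (1 / (4 * lam * D ^ 2)) := by positivity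
      linarith
    · rw [not_le] at h
      have hF : D ≤ Fen β g - μ := by
        have := Real.log_lt_log (by positivity) h
        rw [Real.log_div hm0.ne' two_ne_zero] at this
        rw [Fen_eq_log]; linarith
      have h1 : 1 / (4 * lam) ≤ (Fen β g - μ) ^ 2 * (1 / (4 * lam * D ^ 2)) := by
        rw [show 1 / (4 * lam) = D ^ 2 * (1 / (4 * lam * D ^ 2)) by field_simp]
        exact mul_le_mul_of_nonneg_right (by gcongr) (by positivity)
      have h2 : part1 β g ≤ lam * part1 β g ^ 2 + 1 / (4 * lam) := by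
        have : lam * part1 β g ^ 2 + 1 / (4 * lam) - part1 β g =
            (2 * lam * part1 β g - 1) ^ 2 / (4 * lam) := by field_simp; ring
        have : 0 ≤ (2 * lam * part1 β g - 1) ^ 2 / (4 * lam) := by positivity
        linarith
      linarith
  have hint := integral_mono hI1
    (((integrable_const (m / 2)).add (hI2.const_mul lam)).add (hvarI.mul_const _)) hpt
  simp only [Pi.add_apply] at hint
  rw [integral_add _ (hvarI.mul_const _), integral_add (integrable_const _) (hI2.const_mul lam),
    integral_const_mul, integral_mul_const,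
    show ∫ g, part1 β g ∂gauss (Edge n) = m from hZ1] at hint
  rotate_left
  · exact (integrable_const (m / 2)).add (hI2.const_mul lam)
  have hvar : ∫ g, (Fen β g - μ) ^ 2 ∂gauss (Edge n) ≤ β ^ 2 * n := by
    have h := gauss_poincare hT
    rw [show ∫ g, (Fen β g - μ) ∂gauss (Edge n) = 0 by
      rw [integral_sub (Tame.fen β).integrable (integrable_const _)]
      simp [hμ, mean]] at h
    refine le_trans (by simpa using h) ?_
    calc ∫ g, ∑ e, pd e (fun g => Fen β g - μ) g ^ 2 ∂gauss (Edge n)
        ≤ ∫ _g, β ^ 2 * n ∂gauss (Edge n) := by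
          refine integral_mono (Tame.sum _ fun e _ => (hT.pd e).pow 2).integrable
            (integrable_const _) fun g => le_trans (le_of_eq ?_) (Fen_grad_le β g)
          simp [pd_sub _ (Tame.fen β) (Tame.const μ), pd_const]
      _ = _ := by simp
  have hZ2' : lam * ∫ g, part1 β g ^ 2 ∂gauss (Edge n) ≤ m / 4 := by
    calc _ ≤ lam * (A * m ^ 2) := mul_le_mul_of_nonneg_left hZ2 hlam0.le
      _ = _ := by rw [hlam]; field_simp
  simp only [integral_const, probReal_univ, smul_eq_mul, one_mul] at hint
  have h4 : m / 4 ≤ β ^ 2 * n * (1 / (4 * lam * D ^ 2)) := by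
    have := mul_le_mul_of_nonneg_right hvar (show 0 ≤ 1 / (4 * lam * D ^ 2) by positivity)
    linarith
  have h5 : D ^ 2 ≤ 4 * (A * n) * β ^ 2 := by
    rw [hlam] at h4
    field_simp at h4
    nlinarith [h4]
  have h6 : D ≤ 2 * Real.sqrt (A * n) := by
    refine abs_le_of_sq_le_sq' ?_ (by positivity) |>.2
    rw [mul_pow, Real.sq_sqrt (by positivity)]
    have h7 : A * n * β ^ 2 ≤ A * n * 1 :=
      mul_le_mul_of_nonneg_left hγ.le (by positivity)
    linarith
  linarith

theorem tame_energy (s : Fin n → Bool) : Tame (fun g : Cfg n => energy g s) := by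
  simp only [energy_eq_edge]
  exact Tame.sum _ fun e _ => (Tame.coord e).mul (Tame.const _)

theorem tame_eAvg (β : ℝ) : Tame (eAvg (n := n) β) :=
  Tame.sum _ fun s _ => (Tame.gibbs β s).mul (tame_energy s)

theorem tame_ov2 (β : ℝ) : Tame (ov2 (n := n) β) :=
  Tame.sum _ fun s _ => Tame.sum _ fun u _ =>
    ((Tame.gibbs β s).mul (Tame.gibbs β u)).mul (Tame.const _)

theorem tangent (a b : ℝ) (g : Cfg n) : Fen a g + (b - a) * eAvg a g ≤ Fen b g := by
  have hZa : 0 < part1 a g := partition_pos a g
  have hkey : part1 a g * Real.exp ((b - a) * eAvg a g) ≤ part1 b g := by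
    set m := (b - a) * eAvg a g
    calc part1 a g * Real.exp m
        = part1 a g * ∑ s, gibbs a g s * (Real.exp m * (1 + ((b - a) * energy g s - m))) := by
          congr 1
          have : ∀ s, gibbs a g s * (Real.exp m * (1 + ((b - a) * energy g s - m))) =
              Real.exp m * (1 - m) * gibbs a g s +
                Real.exp m * (b - a) * (gibbs a g s * energy g s) := fun s => by ring
          simp only [this, Finset.sum_add_distrib, ← Finset.mul_sum, gibbs_sum]
          change _ = _ + Real.exp m * (b - a) * eAvg a g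
          simp only [m]; ring
      _ ≤ part1 a g * ∑ s, gibbs a g s * Real.exp ((b - a) * energy g s) := by
          refine mul_le_mul_of_nonneg_left (Finset.sum_le_sum fun s _ =>
            mul_le_mul_of_nonneg_left ?_ (gibbs_nonneg a g s)) hZa.le
          calc Real.exp m * (1 + ((b - a) * energy g s - m))
              ≤ Real.exp m * Real.exp ((b - a) * energy g s - m) := by
                gcongr; linarith [Real.add_one_le_exp ((b - a) * energy g s - m)]
            _ = _ := by rw [← Real.exp_add]; congr 1; ring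
      _ = part1 b g := by
          rw [Finset.mul_sum]
          refine Finset.sum_congr rfl fun s _ => ?_
          rw [gibbs]
          change part1 a g * (Real.exp (a * energy g s) / part1 a g *
            Real.exp ((b - a) * energy g s)) = _
          field_simp
          rw [← Real.exp_add]; congr 1; ring
  rw [Fen_eq_log, Fen_eq_log]
  calc Real.log (part1 a g) + (b - a) * eAvg a g
      = Real.log (part1 a g * Real.exp ((b - a) * eAvg a g)) := by
        rw [Real.log_mul hZa.ne' (Real.exp_pos _).ne', Real.log_exp]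
    _ ≤ _ := Real.log_le_log (by positivity) hkey

theorem mean_tangent (a b : ℝ) :
    mean (Fen (n := n) a) + (b - a) * mean (eAvg (n := n) a) ≤ mean (Fen (n := n) b) := by
  have h := integral_mono (μ := gauss (Edge n))
    ((Tame.fen a).integrable.add ((tame_eAvg a).integrable.const_mul (b - a)))
    (Tame.fen b).integrable (tangent a b)
  simp only [Pi.add_apply] at h
  rw [integral_add (Tame.fen a).integrable ((tame_eAvg a).integrable.const_mul _),
    integral_const_mul] at h
  exact h

/-- Integration by parts for the mean energy. -/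
theorem mean_eAvg (β : ℝ) :
    mean (eAvg (n := n) β) = β * n * (1 - mean (ov2 (n := n) β)) / 2 := by
  rcases Nat.eq_zero_or_pos n with rfl | hn
  · have : ∀ g : Cfg 0, eAvg β g = 0 := fun g => by
      simp [eAvg, energy, hamiltonian]
    simp [mean, this]
  have hn' : (0 : ℝ) < n := by exact_mod_cast hn
  have hTe : ∀ s (e : Edge n), Tame (fun g : Cfg n => g e * (dEnergy s e * gibbs β g s)) :=
    fun s e => (Tame.coord e).mul ((Tame.gibbs β s).const_mul _)
  have hTp : ∀ s (e : Edge n), Tame (fun g : Cfg n => dEnergy s e *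
      (β * gibbs β g s * (dEnergy s e - ∑ u, gibbs β g u * dEnergy u e))) := fun s e =>
    ((((Tame.gibbs β s).const_mul β).mul ((Tame.const _).sub (Tame.sum _ fun u _ =>
      (Tame.gibbs β u).mul (Tame.const _)))).const_mul _)
  have h1 : mean (eAvg (n := n) β) = ∑ s, ∑ e, ∫ g, dEnergy s e *
      (β * gibbs β g s * (dEnergy s e - ∑ u, gibbs β g u * dEnergy u e)) ∂gauss (Edge n) := by
    have e0 : eAvg (n := n) β = fun g => ∑ s, ∑ e, g e * (dEnergy s e * gibbs β g s) := by
      funext g
      simp only [eAvg, energy_eq_edge, Finset.mul_sum]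
      exact Finset.sum_congr rfl fun s _ => Finset.sum_congr rfl fun e _ => by ring
    rw [mean, e0, integral_finsetSum _ fun s _ => (Tame.sum _ fun e _ => hTe s e).integrable]
    refine Finset.sum_congr rfl fun s _ => ?_
    rw [integral_finsetSum _ fun e _ => (hTe s e).integrable]
    refine Finset.sum_congr rfl fun e _ => ?_
    rw [gauss_ibp ((Tame.gibbs β s).const_mul _) e, pd_const_mul _ _ (Tame.gibbs β s), pd_gibbs]
  rw [h1]
  simp only [← integral_finsetSum _ fun e (_ : e ∈ Finset.univ) => (hTp _ e).integrable]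
  rw [← integral_finsetSum _ fun s _ => (Tame.sum _ fun e _ => hTp s e).integrable]
  have hpt : ∀ g : Cfg n, ∑ s, ∑ e, dEnergy s e *
      (β * gibbs β g s * (dEnergy s e - ∑ u, gibbs β g u * dEnergy u e)) =
      β * n * (1 - ov2 β g) / 2 := by
    intro g
    have : ∀ s : Fin n → Bool, ∑ e, dEnergy s e *
        (β * gibbs β g s * (dEnergy s e - ∑ u, gibbs β g u * dEnergy u e)) =
        β * gibbs β g s * (((n : ℝ) ^ 2 - n) / (2 * n)) -
          β * gibbs β g s * ∑ u, gibbs β g u * ((spinDot s u ^ 2 - n) / (2 * n)) := by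
      intro s
      have hu : ∑ u, gibbs β g u * ((spinDot s u ^ 2 - n) / (2 * n)) =
          ∑ e, dEnergy s e * ∑ u, gibbs β g u * dEnergy u e := by
        simp only [← sum_dEnergy_mul, Finset.mul_sum]
        rw [Finset.sum_comm]
        exact Finset.sum_congr rfl fun u _ => Finset.sum_congr rfl fun e _ => by ring
      rw [hu, show ((n : ℝ) ^ 2 - n) / (2 * n) = ∑ e, dEnergy s e * dEnergy s e by
          rw [sum_dEnergy_mul, spinDot_self], Finset.mul_sum, Finset.mul_sum,
        ← Finset.sum_sub_distrib]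
      exact Finset.sum_congr rfl fun e _ => by ring
    simp only [this, Finset.sum_sub_distrib, ← Finset.sum_mul, ← Finset.mul_sum, gibbs_sum]
    have hb : ∑ s, β * gibbs β g s * ∑ u, gibbs β g u * ((spinDot s u ^ 2 - n) / (2 * n)) =
        β * (n / 2) * ov2 β g - β / 2 := by
      have h3 : ∀ s u : Fin n → Bool, gibbs β g u * ((spinDot s u ^ 2 - n) / (2 * n)) =
          gibbs β g u * (spinDot s u / n) ^ 2 * (n / 2) - gibbs β g u * (1 / 2) := fun s u => by
        field_simp
      simp only [h3, Finset.sum_sub_distrib, ← Finset.sum_mul, gibbs_sum, mul_sub, ov2]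
      congr 1
      · rw [Finset.mul_sum]
        refine Finset.sum_congr rfl fun s _ => ?_
        simp only [Finset.sum_mul, Finset.mul_sum]
        exact Finset.sum_congr rfl fun u _ => by ring
      · rw [← Finset.mul_sum, gibbs_sum]; ring
    rw [hb]
    field_simp
    ring
  simp only [hpt, mean]
  rw [integral_div, integral_const_mul, integral_sub (integrable_const _) (tame_ov2 β).integrable]
  simp

theorem ov2_nonneg (β : ℝ) (g : Cfg n) : 0 ≤ ov2 β g :=
  Finset.sum_nonneg fun s _ => Finset.sum_nonneg fun u _ =>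
    mul_nonneg (mul_nonneg (gibbs_nonneg β g s) (gibbs_nonneg β g u)) (sq_nonneg _)

/-- Just above the critical temperature the mean squared overlap is small. -/
theorem overlap_small {η : ℝ} (hη : 0 < η) (hη1 : η ≤ 1 / 4) :
    ∀ᶠ n : ℕ in Filter.atTop, ∀ β ∈ Set.Icc (1 : ℝ) (1 + η),
      mean (ov2 (n := n) β) ≤ 4 * η := by
  set b1 := 1 - η with hb1
  set b0 := 1 - 2 * η with hb0
  set A := gaussA (b1 ^ 2)
  obtain ⟨N, hN⟩ := Filter.eventually_atTop.1
    ((Filter.Tendsto.comp Real.tendsto_sqrt_atTop tendsto_natCast_atTop_atTop).eventually_ge_atTop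
      (4 * (1 + 2 * Real.sqrt A) / (η * η) + 1 + 2 / η))
  refine Filter.eventually_atTop.2 ⟨max N 1, fun n hn β hβ => ?_⟩
  have hn1 : 1 ≤ n := le_of_max_le_right hn
  have hnR : (1 : ℝ) ≤ n := by exact_mod_cast hn1
  have hs : 4 * (1 + 2 * Real.sqrt A) / (η * η) + 1 + 2 / η ≤ Real.sqrt n :=
    hN n (le_of_max_le_left hn)
  have hA0 : 0 ≤ A := integral_nonneg fun x => (Real.exp_pos _).le
  have hsA : 0 ≤ Real.sqrt A := Real.sqrt_nonneg _
  have hlower := mean_Fen_ge (n := n) (β := b1) (by linarith) (by linarith)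
  have hupper := mean_Fen_le (n := n) b0
  have t1 := mean_tangent (n := n) b1 b0
  have t2 := mean_tangent (n := n) β b1
  have t3 := mean_tangent (n := n) b1 β
  set U1 := mean (eAvg (n := n) b1)
  set U := mean (eAvg (n := n) β) with hU
  have hmon : U1 ≤ U := by
    have hd : 0 < β - b1 := by linarith [hβ.1]
    by_contra hc
    push Not at hc
    nlinarith [mul_lt_mul_of_pos_left hc hd]
  have hlog : ∀ b : ℝ, Real.log (annealed n b) = n * Real.log 2 + b ^ 2 * ((n : ℝ) - 1) / 4 := by
    intro b
    rw [annealed, Real.log_mul (by positivity) (Real.exp_pos _).ne', Real.log_exp, Real.log_pow]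
    field_simp
  rw [hlog] at hlower hupper
  rw [Real.sqrt_mul hA0] at hlower
  have hlog2 : Real.log 2 ≤ 1 := by linarith [Real.log_le_sub_one_of_pos (show (0:ℝ) < 2 by norm_num)]
  set q := Real.sqrt n with hq
  have hqq : q * q = n := Real.mul_self_sqrt (by linarith)
  have hq1 : 1 ≤ q := Real.one_le_sqrt.2 hnR
  have hsA2 : (1 + 2 * Real.sqrt A) * 4 ≤ q * (η * η) := by
    have : 4 * (1 + 2 * Real.sqrt A) / (η * η) ≤ q := by
      have : 0 ≤ 2 / η := by positivity
      linarith
    rw [div_le_iff₀ (by positivity)] at this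
    linarith
  have herr : Real.log 2 + 2 * (Real.sqrt A * q) ≤ η * η * n / 4 := by
    have h1 := mul_le_mul_of_nonneg_left hsA2 (show (0:ℝ) ≤ q / 4 by positivity)
    have h2 : q / 4 * (q * (η * η)) = η * η * n / 4 := by rw [← hqq]; ring
    nlinarith
  have hU1 : ((n : ℝ) - 1) * (b1 + b0) / 4 - η * n / 4 ≤ U1 := by
    have h1 : η * (((n : ℝ) - 1) * (b1 + b0) / 4 - η * n / 4) ≤ η * U1 := by
      have e : η = b1 - b0 := by rw [hb1, hb0]; ring
      calc η * (((n : ℝ) - 1) * (b1 + b0) / 4 - η * n / 4)
          = (b1 ^ 2 * ((n : ℝ) - 1) / 4 - b0 ^ 2 * ((n : ℝ) - 1) / 4) - η * η * n / 4 := by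
            rw [hb1, hb0]; ring
        _ ≤ mean (Fen (n := n) b1) - mean (Fen (n := n) b0) := by linarith
        _ ≤ η * U1 := by
            have : (b0 - b1) * U1 = -(η * U1) := by rw [e]; ring
            linarith
    exact le_of_mul_le_mul_left h1 hη
  rw [hU, mean_eAvg] at hmon
  have hρ0 : 0 ≤ mean (ov2 (n := n) β) := integral_nonneg fun g => ov2_nonneg β g
  set ρ := mean (ov2 (n := n) β)
  have h2n : 2 ≤ η * n := by
    have h' : 2 / η ≤ q := by
      have : 0 ≤ 4 * (1 + 2 * Real.sqrt A) / (η * η) := by positivity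
      linarith
    rw [div_le_iff₀ hη] at h'
    have : q ≤ n := by rw [← hqq]; nlinarith
    nlinarith
  by_contra hc
  push Not at hc
  have h3 : (n : ℝ) * ρ ≤ β * n * ρ := by
    have := mul_le_mul_of_nonneg_right hβ.1 (mul_nonneg (by linarith : (0:ℝ) ≤ n) hρ0)
    linarith
  have h4 : β * n ≤ (1 + η) * n := mul_le_mul_of_nonneg_right hβ.2 (by linarith)
  have h5 : (4 * η) * n < ρ * n := mul_lt_mul_of_pos_right hc (by linarith)
  simp only [hb1, hb0] at hU1
  nlinarith

/-- A Gibbs mean containing one spin, averaged over the position of that spin. -/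
theorem sum_abs_gibbs_spin (β : ℝ) (g : Cfg n) (A : (Fin n → Bool) → ℝ) (hA : ∀ s, |A s| ≤ 1)
    {t : ℝ} (ht : 0 < t) :
    ∑ a, |∑ s, gibbs β g s * (A s * spin (s a))| ≤
      n * (t / 2 + t / 4 + ov2 β g / (4 * t ^ 3)) := by
  rcases Nat.eq_zero_or_pos n with rfl | hn
  · simp
  have hn' : (0 : ℝ) < n := by exact_mod_cast hn
  set y : Fin n → ℝ := fun a => ∑ s, gibbs β g s * (A s * spin (s a))
  have h1 : ∀ a, |y a| ≤ t / 2 + y a ^ 2 * (1 / (2 * t)) := fun a => by
    have : t / 2 + y a ^ 2 * (1 / (2 * t)) - |y a| = (|y a| - t) ^ 2 / (2 * t) := by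
      rw [sub_sq, sq_abs]; field_simp; ring
    have : 0 ≤ (|y a| - t) ^ 2 / (2 * t) := by positivity
    linarith
  have h2 : ∑ a, y a ^ 2 =
      ∑ s, ∑ u, gibbs β g s * gibbs β g u * (A s * A u * spinDot s u) := by
    simp only [y, sq, spinDot]
    rw [Finset.sum_congr rfl fun a _ => Finset.sum_mul_sum _ _ _ _]
    simp only [Finset.mul_sum]
    rw [Finset.sum_comm]
    refine Finset.sum_congr rfl fun s _ => ?_
    rw [Finset.sum_comm]
    exact Finset.sum_congr rfl fun u _ => Finset.sum_congr rfl fun a _ => by ring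
  have h3 : ∀ s u, A s * A u * spinDot s u ≤
      n * (t ^ 2 / 2) + n / (2 * t ^ 2) * (spinDot s u / n) ^ 2 := by
    intro s u
    have e : A s * A u * spinDot s u ≤ |spinDot s u| := by
      refine (le_abs_self _).trans ?_
      rw [abs_mul, abs_mul]
      exact mul_le_of_le_one_left (abs_nonneg _) (mul_le_one₀ (hA s) (abs_nonneg _) (hA u))
    refine e.trans ?_
    set x := spinDot s u / n with hx
    have hd : spinDot s u = n * x := by rw [hx]; field_simp
    rw [hd, abs_mul, abs_of_pos hn']
    have : t ^ 2 / 2 + x ^ 2 / (2 * t ^ 2) - |x| = (|x| - t ^ 2) ^ 2 / (2 * t ^ 2) := by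
      rw [sub_sq, sq_abs]; field_simp; ring
    have : 0 ≤ (|x| - t ^ 2) ^ 2 / (2 * t ^ 2) := by positivity
    calc (n : ℝ) * |x| ≤ n * (t ^ 2 / 2 + x ^ 2 / (2 * t ^ 2)) := by gcongr; linarith
      _ = _ := by ring
  have h4 : ∑ a, y a ^ 2 ≤ n * (t ^ 2 / 2) + n / (2 * t ^ 2) * ov2 β g := by
    rw [h2]
    calc _ ≤ ∑ s, ∑ u, (gibbs β g s * gibbs β g u * (n * (t ^ 2 / 2)) +
          n / (2 * t ^ 2) * (gibbs β g s * gibbs β g u * (spinDot s u / n) ^ 2)) :=
          Finset.sum_le_sum fun s _ => Finset.sum_le_sum fun u _ => by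
            have := mul_le_mul_of_nonneg_left (h3 s u)
              (mul_nonneg (gibbs_nonneg β g s) (gibbs_nonneg β g u))
            linarith
      _ = _ := by
          simp only [Finset.sum_add_distrib, ← Finset.sum_mul, ← Finset.mul_sum, gibbs_sum, ov2]
          ring
  calc ∑ a, |y a| ≤ ∑ a, (t / 2 + y a ^ 2 * (1 / (2 * t))) := Finset.sum_le_sum fun a _ => h1 a
    _ = n * (t / 2) + (∑ a, y a ^ 2) * (1 / (2 * t)) := by
        rw [Finset.sum_add_distrib, Finset.sum_mul]; simp
    _ ≤ n * (t / 2) + (n * (t ^ 2 / 2) + n / (2 * t ^ 2) * ov2 β g) * (1 / (2 * t)) := by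
        gcongr
    _ = _ := by field_simp; ring

end Vale.Agent.P146.NearOne
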